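import Vale.Agent.P281.H64.TS.Spec

/-!
# P281, project T-S, block A5 (helper455): Weil's formulas

`α = Σ c_{abe} ρ_a dρ_b ∧ dρ_e`, `β_f = Σ c_{fbe} ρ_b dρ_e`, `g_{ef} = Σ c_{efb} ρ_b`.
-/

open Set Filter Metric MeasureTheory
open scoped Topology ContDiff ComplexConjugate ComplexOrder

noncomputable section

namespace Vale.Agent.P281.H455.TS

open Vale.Agent.P281.H64 Vale.Agent.P281.H64.TK Vale.Agent.P281.H64.TK.TS

/-! ### The pointwise algebra -/

section alg
variable {A : Type} [Fintype A] {c : A → A → A → ℂ} {P : A → Prop}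
  (hc : ∀ a b e f, P a → P b → P e → P f → c b e f - c a e f + c a b f - c a b e = 0)
  {r : A → ℂ} (hr : ∀ b, ¬ P b → r b = 0) (h1 : ∑ b, r b = 1)
include hc hr h1

theorem alg1 {a b e : A} (ha : P a) (hb : P b) (he : P e) :
    ∑ f, c b e f * r f - ∑ f, c a e f * r f + ∑ f, c a b f * r f = c a b e := by
  have h : ∀ f, c b e f * r f - c a e f * r f + c a b f * r f = c a b e * r f := by
    intro f
    by_cases hf : P f
    · linear_combination r f * hc a b e f ha hb he hf
    · simp [hr f hf]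
  rw [← Finset.sum_sub_distrib, ← Finset.sum_add_distrib, Finset.sum_congr rfl fun f _ => h f,
    ← Finset.mul_sum, h1, mul_one]

theorem alg2 {x : A → ℂ} (hx : ∀ b, ¬ P b → x b = 0) (h0 : ∑ b, x b = 0) {a b : A}
    (ha : P a) (hb : P b) :
    ∑ f, ∑ e, c a f e * r f * x e - ∑ f, ∑ e, c b f e * r f * x e = ∑ e, c a b e * x e := by
  have h : ∀ f e, c a f e * r f * x e - c b f e * r f * x e
      = r f * (c a b e * x e) - (c a b f * r f) * x e := by
    intro f e
    by_cases hf : P f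
    · by_cases he : P e
      · linear_combination - (r f * x e) * hc a b f e ha hb hf he
      · simp [hx e he]
    · simp [hr f hf]
  calc ∑ f, ∑ e, c a f e * r f * x e - ∑ f, ∑ e, c b f e * r f * x e
      = ∑ f, ∑ e, (c a f e * r f * x e - c b f e * r f * x e) := by
        simp only [Finset.sum_sub_distrib]
    _ = ∑ f, ∑ e, (r f * (c a b e * x e) - (c a b f * r f) * x e) := by
        simp only [h]
    _ = ∑ f, (r f * ∑ e, c a b e * x e) - ∑ f, (c a b f * r f) * ∑ e, x e := by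
        simp only [Finset.sum_sub_distrib, Finset.mul_sum]
    _ = ∑ e, c a b e * x e := by
        rw [← Finset.sum_mul, h1, one_mul, h0]
        simp

theorem alg3 {x y : A → ℂ} (hx : ∀ b, ¬ P b → x b = 0) (hx0 : ∑ b, x b = 0)
    (hy : ∀ b, ¬ P b → y b = 0) (hy0 : ∑ b, y b = 0) {f : A} (hf : P f) :
    ∑ a, ∑ b, ∑ e, c a b e * r a * x b * y e = ∑ b, ∑ e, c f b e * x b * y e := by
  have h : ∀ a b e, c a b e * r a * x b * y e = r a * (c f b e * x b * y e)
      - x b * (c f a e * r a * y e) + (c f a b * r a * x b) * y e := by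
    intro a b e
    by_cases ha : P a
    · by_cases hb : P b
      · by_cases he : P e
        · linear_combination (r a * x b * y e) * hc f a b e hf ha hb he
        · simp [hy e he]
      · simp [hx b hb]
    · simp [hr a ha]
  calc ∑ a, ∑ b, ∑ e, c a b e * r a * x b * y e
      = ∑ a, ∑ b, ∑ e, (r a * (c f b e * x b * y e)
      - x b * (c f a e * r a * y e) + (c f a b * r a * x b) * y e) := by
        simp only [h]
    _ = ∑ a, (r a * ∑ b, ∑ e, c f b e * x b * y e) -
        ∑ a, (∑ b, x b * ∑ e, c f a e * r a * y e) +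
        ∑ a, ∑ b, (c f a b * r a * x b) * ∑ e, y e := by
        simp only [Finset.sum_sub_distrib, Finset.sum_add_distrib, Finset.mul_sum]
    _ = ∑ b, ∑ e, c f b e * x b * y e := by
        rw [← Finset.sum_mul, h1, one_mul, hy0]
        simp only [← Finset.sum_mul, hx0]
        simp

end alg

variable {d : ℕ}

/-- `p ⊗ q`. -/
def ten (p q : L1 d) : L2 d := ((ContinuousLinearMap.lsmul ℝ ℂ).flip q).comp p

theorem ten_apply (p q : L1 d) (u v : Cm d) : ten p q u v = p u * q v := by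
  simp [ten]

/-- `p ∧ q`. -/
def wdg (p q : L1 d) : L2 d := ten p q - ten q p

theorem wdg_apply (p q : L1 d) (u v : Cm d) : wdg p q u v = p u * q v - q u * p v := by
  simp [wdg, ten_apply]

theorem ten_smooth {f g : Cm d → L1 d} {z : Cm d} (hf : ContDiffAt ℝ ∞ f z)
    (hg : ContDiffAt ℝ ∞ g z) : ContDiffAt ℝ ∞ (fun z => ten (f z) (g z)) z := by
  unfold ten
  refine ContDiffAt.clm_comp ?_ hf
  exact (ContinuousLinearMap.contDiff _).contDiffAt.comp z hg

theorem wdg_smooth {f g : Cm d → L1 d} {z : Cm d} (hf : ContDiffAt ℝ ∞ f z)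
    (hg : ContDiffAt ℝ ∞ g z) : ContDiffAt ℝ ∞ (fun z => wdg (f z) (g z)) z :=
  (ten_smooth hf hg).sub (ten_smooth hg hf)

/-! ### Closedness of an exterior derivative -/

theorem closed_of {β : Cm d → L1 d} {α : Cm d → L2 d} {z : Cm d} (hβ : ContDiffAt ℝ ∞ β z)
    (h : ∀ᶠ y in 𝓝 z, ∀ u v, fderiv ℝ β y u v - fderiv ℝ β y v u = α y u v)
    (hα : DifferentiableAt ℝ α z) (u v w : Cm d) :
    fderiv ℝ α z u v w + fderiv ℝ α z v w u + fderiv ℝ α z w u v = 0 := by
  have hs : ∀ u v, fderiv ℝ (fderiv ℝ β) z u v = fderiv ℝ (fderiv ℝ β) z v u := by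
    have := hβ.isSymmSndFDerivAt (by
      rw [minSmoothness_of_isRCLikeNormedField]
      exact WithTop.coe_le_coe.2 le_top)
    exact this
  have hd : DifferentiableAt ℝ (fderiv ℝ β) z :=
    (hβ.fderiv_right (m := ∞) (by simp)).differentiableAt (by simp)
  have key : ∀ u v w, fderiv ℝ α z u v w =
      fderiv ℝ (fderiv ℝ β) z u v w - fderiv ℝ (fderiv ℝ β) z u w v := by
    intro u v w
    have e1 := (hα.hasFDerivAt.clm_apply (hasFDerivAt_const v z)).clm_apply
      (hasFDerivAt_const w z)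
    have e2 := fun v w : Cm d => (hd.hasFDerivAt.clm_apply (hasFDerivAt_const v z)).clm_apply
      (hasFDerivAt_const w z)
    have e3 := (e2 v w).sub (e2 w v)
    have e4 : HasFDerivAt (fun y => α y v w) _ z := e3.congr_of_eventuallyEq (by
      filter_upwards [h] with y hy
      exact (hy v w).symm)
    have e5 := e1.unique e4
    have e6 := congrArg (fun L : Cm d →L[ℝ] ℂ => L u) e5
    simpa using e6
  rw [key, key, key, hs u v, hs v w, hs w u]
  ring

section main
variable {E Γ : Type} [TopologicalSpace E] [Group Γ] [MulAction Γ E]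
  {S : Sheets d E Γ} {A : Type}

theorem sig_cont (S : Sheets d E Γ) (i : Fin S.N) {z : Cm d} (hz : z ∈ ball (0 : Cm d) 3) :
    ContinuousAt (S.σ i) z := (S.map_nhds i z hz).le

theorem isOpen_eb (c : Cm d) (r : ℝ) : IsOpen (eb c r) := by
  unfold eb
  exact isOpen_lt (by fun_prop) continuous_const

theorem eb_sub (G : Good S A) (a : A) : eb (G.c a) (G.r a) ⊆ ball (0 : Cm d) 3 := by
  intro z hz
  have h1 : z ∈ eb (G.c a) (2 * G.r a) := by
    have := G.pos a
    simp only [eb, mem_ofPred_eq] at hz ⊢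
    nlinarith
  exact ball_subset_ball (by norm_num) (G.sub a h1)

theorem isOpen_U (G : Good S A) (a : A) : IsOpen (G.U a) := by
  rw [isOpen_iff_mem_nhds]
  rintro _ ⟨z, hz, rfl⟩
  rw [← S.map_nhds (G.i a) z (eb_sub G a hz)]
  exact image_mem_map ((isOpen_eb _ _).mem_nhds hz)

theorem cover_U (G : Good S A) (e : E) : ∃ a, e ∈ G.U a := by
  obtain ⟨a, z, hz, rfl⟩ := G.cover e
  refine ⟨a, z, ?_, rfl⟩
  have := G.pos a
  simp only [eb, mem_ofPred_eq] at hz ⊢
  nlinarith

/-- `ρ_b` in the sheet `i`. -/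
def R (S : Sheets d E Γ) (ρ : A → E → ℝ) (b : A) (i : Fin S.N) (z : Cm d) : ℂ :=
  (ρ b (S.σ i z) : ℂ)

/-- `dρ_b` in the sheet `i`. -/
def D (S : Sheets d E Γ) (ρ : A → E → ℝ) (b : A) (i : Fin S.N) (z : Cm d) : L1 d :=
  fderiv ℝ (R S ρ b i) z

variable [Fintype A]

/-- `β_a`. -/
def be (S : Sheets d E Γ) (ρ : A → E → ℝ) (c : A → A → A → ℂ) (a : A) (i : Fin S.N) (z : Cm d) :
    L1 d := ∑ b, ∑ e, (c a b e * R S ρ b i z) • D S ρ e i z

/-- `α`. -/
def al (S : Sheets d E Γ) (ρ : A → E → ℝ) (c : A → A → A → ℂ) (i : Fin S.N) (z : Cm d) : L2 d :=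
  ∑ a, ∑ b, ∑ e, wdg ((c a b e * R S ρ a i z) • D S ρ b i z) (D S ρ e i z)

/-- `g_{ab}`. -/
def ge (ρ : A → E → ℝ) (c : A → A → A → ℂ) (a b : A) (x : E) : ℂ := ∑ f, c a b f * (ρ f x : ℂ)

variable {G : Good S A} {ρ : A → E → ℝ} (hρ : Part G ρ) {c : A → A → A → ℂ}
include hρ

theorem R_smooth (b : A) (i : Fin S.N) {z : Cm d} (hz : z ∈ ball (0 : Cm d) 3) :
    ContDiffAt ℝ ∞ (R S ρ b i) z := hρ.smooth b i z hz (mem_univ _)

theorem D_smooth (b : A) (i : Fin S.N) {z : Cm d} (hz : z ∈ ball (0 : Cm d) 3) :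
    ContDiffAt ℝ ∞ (D S ρ b i) z :=
  (R_smooth hρ b i hz).fderiv_right (m := ∞) (by simp)

theorem R_has (b : A) (i : Fin S.N) {z : Cm d} (hz : z ∈ ball (0 : Cm d) 3) :
    HasFDerivAt (R S ρ b i) (D S ρ b i z) z :=
  ((R_smooth hρ b i hz).differentiableAt (by simp)).hasFDerivAt

theorem D_has (b : A) (i : Fin S.N) {z : Cm d} (hz : z ∈ ball (0 : Cm d) 3) :
    HasFDerivAt (D S ρ b i) (fderiv ℝ (D S ρ b i) z) z :=
  ((D_smooth hρ b i hz).differentiableAt (by simp)).hasFDerivAt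

theorem D_symm (b : A) (i : Fin S.N) {z : Cm d} (hz : z ∈ ball (0 : Cm d) 3) (u v : Cm d) :
    fderiv ℝ (D S ρ b i) z u v = fderiv ℝ (D S ρ b i) z v u :=
  (R_smooth hρ b i hz).isSymmSndFDerivAt (by
    rw [minSmoothness_of_isRCLikeNormedField]
    exact WithTop.coe_le_coe.2 le_top) u v

theorem R_zero {b : A} {i : Fin S.N} {z : Cm d} (hb : S.σ i z ∉ G.U b) : R S ρ b i z = 0 := by
  have := (hρ.supp b _ hb).self_of_nhds
  simp [R, this]

theorem D_zero {b : A} {i : Fin S.N} {z : Cm d} (hz : z ∈ ball (0 : Cm d) 3)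
    (hb : S.σ i z ∉ G.U b) : D S ρ b i z = 0 := by
  have h1 := (sig_cont S i hz).eventually (hρ.supp b _ hb)
  have h2 : R S ρ b i =ᶠ[𝓝 z] fun _ => 0 := by
    filter_upwards [h1] with u hu
    simp [R, hu]
  rw [D, h2.fderiv_eq]
  simp

theorem R_sum (i : Fin S.N) (z : Cm d) : ∑ b, R S ρ b i z = 1 := by
  have := hρ.sum (S.σ i z)
  simp only [R]
  exact_mod_cast this

theorem D_sum (i : Fin S.N) {z : Cm d} (hz : z ∈ ball (0 : Cm d) 3) : ∑ b, D S ρ b i z = 0 := by
  have h1 : HasFDerivAt (fun z => ∑ b, R S ρ b i z) (∑ b, D S ρ b i z) z :=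
    HasFDerivAt.fun_sum fun b _ => R_has hρ b i hz
  have h2 : (fun z => ∑ b, R S ρ b i z) = fun _ => 1 := by
    funext z
    exact R_sum hρ i z
  rw [h2] at h1
  exact h1.unique (hasFDerivAt_const _ _)

theorem D_im (b : A) (i : Fin S.N) {z : Cm d} (hz : z ∈ ball (0 : Cm d) 3) (u : Cm d) :
    (D S ρ b i z u).im = 0 := by
  have h1 : HasFDerivAt (fun z => (R S ρ b i z).im) (Complex.imCLM.comp (D S ρ b i z)) z :=
    Complex.imCLM.hasFDerivAt.comp z (R_has hρ b i hz)
  have h2 : (fun z => (R S ρ b i z).im) = fun _ => 0 := by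
    funext z
    simp [R]
  rw [h2] at h1
  have h3 := h1.unique (hasFDerivAt_const _ _)
  have h4 := congrArg (fun L : Cm d →L[ℝ] ℝ => L u) h3
  simpa using h4

theorem D_change (b : A) {i j : Fin S.N} {z z' : Cm d} (hz' : z' ∈ ball (0 : Cm d) 3)
    {ψ : Cm d → Cm d} (h : Tr S S id i j z z' ψ) (v : Cm d) :
    D S ρ b i z v = D S ρ b j z' (fderiv ℝ ψ z v) := by
  obtain ⟨h1, h2, h3⟩ := h
  have e1 : R S ρ b i =ᶠ[𝓝 z] fun u => R S ρ b j (ψ u) := by
    filter_upwards [h3] with u hu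
    simp only [id] at hu
    simp [R, hu]
  have e2 : HasFDerivAt (fun u => R S ρ b j (ψ u)) ((D S ρ b j z').comp (fderiv ℝ ψ z)) z := by
    have e3 := R_has hρ b j hz'
    rw [← h2] at e3
    have e4 := e3.comp z (h1.differentiableAt (by simp)).hasFDerivAt
    rw [h2] at e4
    exact e4
  rw [D, (e2.congr_of_eventuallyEq e1).fderiv]
  rfl

omit [Fintype A] hρ in
theorem R_change (b : A) {i j : Fin S.N} {z z' : Cm d} {ψ : Cm d → Cm d}
    (h : Tr S S id i j z z' ψ) : R S ρ b i z = R S ρ b j z' := by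
  obtain ⟨h1, h2, h3⟩ := h
  have := h3.self_of_nhds
  simp only [id] at this
  rw [R, R, this, h2]

theorem be_f1 (a : A) : F1On S univ (be S ρ c a) where
  smooth i z hz _ := by
    unfold be
    refine ContDiffAt.sum fun b _ => ContDiffAt.sum fun e _ => ?_
    exact (contDiffAt_const.mul (R_smooth hρ b i hz)).smul (D_smooth hρ e i hz)
  change i j z hz z' hz' _ ψ h v := by
    simp only [be, sum_apply, smul_apply, smul_eq_mul]
    refine Finset.sum_congr rfl fun b _ => Finset.sum_congr rfl fun e _ => ?_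
    rw [R_change b h, D_change hρ e hz' h v]

theorem al_f2 : F2On S univ (al S ρ c) where
  smooth i z hz _ := by
    unfold al
    refine ContDiffAt.sum fun a _ => ContDiffAt.sum fun b _ => ContDiffAt.sum fun e _ => ?_
    exact wdg_smooth ((contDiffAt_const.mul (R_smooth hρ a i hz)).smul (D_smooth hρ b i hz))
      (D_smooth hρ e i hz)
  alt i z hz _ u v := by
    simp only [al, sum_apply, smul_apply, smul_eq_mul,
      wdg_apply, ← Finset.sum_neg_distrib]
    refine Finset.sum_congr rfl fun a _ => Finset.sum_congr rfl fun b _ =>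
      Finset.sum_congr rfl fun e _ => ?_
    ring
  change i j z hz z' hz' _ ψ h u v := by
    simp only [al, sum_apply, smul_apply, smul_eq_mul,
      wdg_apply]
    refine Finset.sum_congr rfl fun a _ => Finset.sum_congr rfl fun b _ =>
      Finset.sum_congr rfl fun e _ => ?_
    rw [R_change a h, D_change hρ b hz' h u, D_change hρ b hz' h v, D_change hρ e hz' h u,
      D_change hρ e hz' h v]

variable (hc : IsCoc (K3 G.U) (K4 G.U) c)
include hc

omit [Fintype A] hρ in
theorem coc_at (x : E) (a b e f : A) (ha : x ∈ G.U a) (hb : x ∈ G.U b) (he : x ∈ G.U e)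
    (hf : x ∈ G.U f) : c b e f - c a e f + c a b f - c a b e = 0 :=
  hc.2 a b e f ⟨x, ⟨⟨ha, hb⟩, he⟩, hf⟩

theorem al_apply (i : Fin S.N) {z : Cm d} (hz : z ∈ ball (0 : Cm d) 3) {f : A}
    (hf : S.σ i z ∈ G.U f) (u v : Cm d) :
    al S ρ c i z u v = ∑ b, ∑ e, c f b e * (D S ρ b i z u * D S ρ e i z v -
      D S ρ e i z u * D S ρ b i z v) := by
  have hx0 : ∀ u, ∑ b, D S ρ b i z u = 0 := by
    intro u
    have := congrArg (fun L : L1 d => L u) (D_sum hρ i hz)
    simpa using this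
  have hx : ∀ u b, S.σ i z ∉ G.U b → D S ρ b i z u = 0 := by
    intro u b hb
    rw [D_zero hρ hz hb]
    rfl
  have e1 := alg3 (P := fun a => S.σ i z ∈ G.U a) (coc_at hc (S.σ i z)) (r := fun b => R S ρ b i z)
    (fun b hb => R_zero hρ hb) (R_sum hρ i z) (x := fun b => D S ρ b i z u)
    (y := fun b => D S ρ b i z v) (hx u) (hx0 u) (hx v) (hx0 v) hf
  have e2 := alg3 (P := fun a => S.σ i z ∈ G.U a) (coc_at hc (S.σ i z)) (r := fun b => R S ρ b i z)
    (fun b hb => R_zero hρ hb) (R_sum hρ i z) (x := fun b => D S ρ b i z v)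
    (y := fun b => D S ρ b i z u) (hx v) (hx0 v) (hx u) (hx0 u) hf
  calc al S ρ c i z u v = ∑ a, ∑ b, ∑ e, c a b e * R S ρ a i z * D S ρ b i z u * D S ρ e i z v -
      ∑ a, ∑ b, ∑ e, c a b e * R S ρ a i z * D S ρ b i z v * D S ρ e i z u := by
        simp only [al, sum_apply, smul_apply, smul_eq_mul,
          wdg_apply, ← Finset.sum_sub_distrib]
        refine Finset.sum_congr rfl fun a _ => Finset.sum_congr rfl fun b _ =>
          Finset.sum_congr rfl fun e _ => ?_
        ring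
    _ = _ := by
        rw [e1, e2]
        simp only [← Finset.sum_sub_distrib]
        refine Finset.sum_congr rfl fun b _ => Finset.sum_congr rfl fun e _ => ?_
        ring

omit hc in
theorem be_has (a : A) (i : Fin S.N) {z : Cm d} (hz : z ∈ ball (0 : Cm d) 3) :
    HasFDerivAt (be S ρ c a i) (∑ b, ∑ e, ((c a b e * R S ρ b i z) • fderiv ℝ (D S ρ e i) z +
      (c a b e • D S ρ b i z).smulRight (D S ρ e i z))) z := by
  unfold be
  refine HasFDerivAt.fun_sum fun b _ => HasFDerivAt.fun_sum fun e _ => ?_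
  exact ((R_has hρ b i hz).const_mul (c a b e)).smul (D_has hρ e i hz)

theorem be_d1 (a : A) : IsD1 S (G.U a) (be S ρ c a) (al S ρ c) := by
  intro i z hz ha u v
  rw [(be_has hρ (c := c) a i hz).fderiv, al_apply hρ hc i hz ha u v]
  simp only [sum_apply, add_apply,
    smul_apply, ContinuousLinearMap.smulRight_apply, smul_eq_mul,
    ← Finset.sum_sub_distrib]
  refine Finset.sum_congr rfl fun b _ => Finset.sum_congr rfl fun e _ => ?_
  rw [D_symm hρ e i hz u v]
  ring

omit hc in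
theorem ge_sm (a b : A) : SmOn S univ (ge ρ c a b) := by
  intro i z hz _
  unfold ge
  refine ContDiffAt.sum fun f _ => ?_
  exact contDiffAt_const.mul (R_smooth hρ f i hz)

theorem ge_d0 (a b : A) : IsD0 S (G.U a ∩ G.U b) (ge ρ c a b)
    (fun i z => be S ρ c a i z - be S ρ c b i z) := by
  intro i z hz hab
  have h1 : HasFDerivAt (fun u => ge ρ c a b (S.σ i u)) (∑ f, c a b f • D S ρ f i z) z := by
    unfold ge
    refine HasFDerivAt.fun_sum fun f _ => ?_
    exact (R_has hρ f i hz).const_mul (c a b f)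
  rw [h1.fderiv]
  ext u
  have hx0 : ∑ b, D S ρ b i z u = 0 := by
    have := congrArg (fun L : L1 d => L u) (D_sum hρ i hz)
    simpa using this
  have hx : ∀ b, S.σ i z ∉ G.U b → D S ρ b i z u = 0 := by
    intro b hb
    rw [D_zero hρ hz hb]
    rfl
  have e1 := alg2 (P := fun a => S.σ i z ∈ G.U a) (coc_at hc (S.σ i z)) (r := fun b => R S ρ b i z)
    (fun b hb => R_zero hρ hb) (R_sum hρ i z) (x := fun b => D S ρ b i z u) hx hx0 hab.1 hab.2
  simp only [be, sum_apply, sub_apply,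
    smul_apply, smul_eq_mul]
  exact e1.symm

theorem ge_co (a b e : A) (x : E) (hx : x ∈ G.U a ∩ G.U b ∩ G.U e) :
    ge ρ c b e x - ge ρ c a e x + ge ρ c a b x = c a b e := by
  have h1 : ∑ b, (ρ b x : ℂ) = 1 := by
    exact_mod_cast hρ.sum x
  exact alg1 (P := fun a => x ∈ G.U a) (coc_at hc x) (r := fun b => (ρ b x : ℂ))
    (fun b hb => by simp [(hρ.supp b x hb).self_of_nhds]) h1 hx.1.1 hx.1.2 hx.2

theorem isCo : IsCo S G.U (al S ρ c) (be S ρ c) (ge ρ c) c where
  f1 a := ⟨fun i z hz _ => (be_f1 hρ a).smooth i z hz (mem_univ _),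
    fun i j z hz z' hz' _ => (be_f1 hρ a).change i j z hz z' hz' (mem_univ _)⟩
  d1 a := be_d1 hρ hc a
  sm a b := fun i z hz _ => ge_sm hρ a b i z hz (mem_univ _)
  d0 a b := ge_d0 hρ hc a b
  co a b b' e he := ge_co hρ hc a b b' e he
  zero a b b' h := by
    refine hc.1 a b b' ?_
    rw [K3, h]
    exact Set.not_nonempty_empty

theorem al_cl2 : Cl2 S (al S ρ c) where
  toF2On := al_f2 hρ
  closed i z hz u v w := by
    obtain ⟨a, ha⟩ := cover_U G (S.σ i z)
    have h1 : ∀ᶠ y in 𝓝 z, S.σ i y ∈ G.U a :=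
      (sig_cont S i hz).eventually ((isOpen_U G a).mem_nhds ha)
    have h2 : ∀ᶠ y in 𝓝 z, y ∈ ball (0 : Cm d) 3 := isOpen_ball.mem_nhds hz
    refine closed_of (β := be S ρ c a i) ((be_f1 hρ a).smooth i z hz (mem_univ _)) ?_
      (((al_f2 hρ).smooth i z hz (mem_univ _)).differentiableAt (by simp)) u v w
    filter_upwards [h1, h2] with y hy1 hy2 u v
    exact be_d1 hρ hc a i y hy2 hy1 u v

omit hc in
theorem al_real (h : ∀ a b e, (c a b e).im = 0) : Real2 S (al S ρ c) := by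
  intro i z hz u v
  have hR : ∀ a, (R S ρ a i z).im = 0 := fun a => by simp [R]
  simp only [al, sum_apply, smul_apply, smul_eq_mul,
    wdg_apply, Complex.im_sum]
  refine Finset.sum_eq_zero fun a _ => Finset.sum_eq_zero fun b _ => Finset.sum_eq_zero fun e _ => ?_
  simp [Complex.mul_im, Complex.mul_re, h, hR, D_im hρ b i hz, D_im hρ e i hz]

theorem al_int (h : ∀ a b e, ∃ m : ℤ, c a b e = m) : IsInt S (al S ρ c) := by
  have hco := isCo hρ hc
  refine ⟨A, G.U, be S ρ c, ge ρ c, isOpen_U G, cover_U G, fun a => ⟨hco.f1 a, hco.d1 a⟩,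
    fun a b => ⟨hco.sm a b, hco.d0 a b⟩, fun a b e x hx => ?_⟩
  rw [hco.co a b e x hx]
  exact h a b e

end main

/-- **A5**: Weil's formulas. -/
theorem weil (hP : PartStmt) : WeilStmt := by
  intro d E Γ _ _ _ _ _ _ S A _ G c hd hc
  obtain ⟨ρ, hρ⟩ := hP d E Γ S A G hd
  exact ⟨al S ρ c, be S ρ c, ge ρ c, al_cl2 hρ hc, isCo hρ hc, al_real hρ, al_int hρ hc⟩

end Vale.Agent.P281.H455.TS
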